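import Mathlib.LinearAlgebra.Matrix.SpecialLinearGroup
import Mathlib.GroupTheory.Solvable
import Mathlib.Tactic.Group
import Mathlib.Data.ZMod.Basic
import Mathlib.Tactic.LinearCombination
import Mathlib.Tactic.NormNum

/-! # P246, disproof of the D(2) property: the group `K = SL(2, 3)` -/

namespace Vale.Agent.P246.Dis.H366

open scoped commutatorElement

/-- `SL(2, 3)` as quadruples -/
structure K where
  p : ZMod 3
  q : ZMod 3
  r : ZMod 3
  s : ZMod 3
  det : p * s - q * r = 1
deriving DecidableEq

namespace K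

theorem ext' {x y : K} (h1 : x.p = y.p) (h2 : x.q = y.q) (h3 : x.r = y.r) (h4 : x.s = y.s) :
    x = y := by
  cases x; cases y; simp_all

instance : Mul K := ⟨fun x y => ⟨x.p * y.p + x.q * y.r, x.p * y.q + x.q * y.s,
  x.r * y.p + x.s * y.r, x.r * y.q + x.s * y.s, by
    have h1 := x.det
    have h2 := y.det
    linear_combination (y.p * y.s - y.q * y.r) * h1 + h2⟩⟩

instance : One K := ⟨⟨1, 0, 0, 1, by ring⟩⟩

instance : Inv K := ⟨fun x => ⟨x.s, -x.q, -x.r, x.p, by
  have h1 := x.det
  linear_combination h1⟩⟩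

@[simp] theorem mul_p (x y : K) : (x * y).p = x.p * y.p + x.q * y.r := rfl
@[simp] theorem mul_q (x y : K) : (x * y).q = x.p * y.q + x.q * y.s := rfl
@[simp] theorem mul_r (x y : K) : (x * y).r = x.r * y.p + x.s * y.r := rfl
@[simp] theorem mul_s (x y : K) : (x * y).s = x.r * y.q + x.s * y.s := rfl
@[simp] theorem one_p : (1 : K).p = 1 := rfl
@[simp] theorem one_q : (1 : K).q = 0 := rfl
@[simp] theorem one_r : (1 : K).r = 0 := rfl
@[simp] theorem one_s : (1 : K).s = 1 := rfl
@[simp] theorem inv_p (x : K) : (x⁻¹).p = x.s := rfl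
@[simp] theorem inv_q (x : K) : (x⁻¹).q = -x.q := rfl
@[simp] theorem inv_r (x : K) : (x⁻¹).r = -x.r := rfl
@[simp] theorem inv_s (x : K) : (x⁻¹).s = x.p := rfl

instance : Group K where
  mul_assoc x y z := by
    apply ext' <;> simp <;> ring
  one_mul x := by apply ext' <;> simp
  mul_one x := by apply ext' <;> simp
  inv_mul_cancel x := by
    have h := x.det
    apply ext' <;> simp
    · linear_combination h
    · ring
    · ring
    · linear_combination h

/-- conjugation by `diag(1, -1)` -/
def beta : K →* K where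
  toFun x := ⟨x.p, -x.q, -x.r, x.s, by
    have h := x.det
    linear_combination h⟩
  map_one' := by apply ext' <;> simp
  map_mul' x y := by apply ext' <;> simp <;> ring

@[simp] theorem beta_p (x : K) : (beta x).p = x.p := rfl
@[simp] theorem beta_q (x : K) : (beta x).q = -x.q := rfl
@[simp] theorem beta_r (x : K) : (beta x).r = -x.r := rfl
@[simp] theorem beta_s (x : K) : (beta x).s = x.s := rfl

@[simp] theorem beta_beta (x : K) : beta (beta x) = x := by
  apply ext' <;> simp

/-- the element `a` -/
def a : K := ⟨0, 1, 2, 1, by decide⟩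

/-- the central involution -/
def z : K := ⟨2, 0, 0, 2, by decide⟩

theorem z_mul_z : z * z = 1 := by decide

theorem z_ne_one : z ≠ 1 := by decide

theorem a_cube : a * a * a = z := by decide

theorem beta_z : beta z = z := by decide

theorem z_comm (x : K) : z * x = x * z := by
  apply ext' <;> simp [z] <;> ring

theorem rel : a * beta a * a = beta a * beta a := by decide

/-- the transversal of the centre -/
def eps (x : K) : Bool := x.p = 1 ∨ (x.p = 0 ∧ x.q = 1)

theorem eps_z (x : K) : eps (z * x) = !eps x := by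
  have key : ∀ p q r s : ZMod 3, p * s - q * r = 1 →
      (decide (2 * p + 0 * r = 1 ∨ (2 * p + 0 * r = 0 ∧ 2 * q + 0 * s = 1)) : Bool) =
        !(decide (p = 1 ∨ (p = 0 ∧ q = 1)) : Bool) := by decide
  exact key x.p x.q x.r x.s x.det

/-- the character with kernel `Q_8` -/
def chi (x : K) : ZMod 3 := (1 - x.r * x.r) * (x.q * x.s + x.r) + x.r * (x.p + x.s)

theorem chi_mul (x y : K) : chi (x * y) = chi x + chi y := by
  have key : ∀ p q r s : ZMod 3, p * s - q * r = 1 → ∀ p' q' r' s' : ZMod 3,
      p' * s' - q' * r' = 1 → (1 - (r * p' + s * r') * (r * p' + s * r')) *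
        ((p * q' + q * s') * (r * q' + s * s') + (r * p' + s * r')) +
        (r * p' + s * r') * ((p * p' + q * r') + (r * q' + s * s')) =
      ((1 - r * r) * (q * s + r) + r * (p + s)) +
        ((1 - r' * r') * (q' * s' + r') + r' * (p' + s')) := by decide
  exact key x.p x.q x.r x.s x.det y.p y.q y.r y.s y.det

/-- the subgroup `Q_8` -/
def Q8 : Subgroup K where
  carrier := {x | chi x = 0}
  one_mem' := by
    change chi 1 = 0
    decide
  mul_mem' := by
    intro x y hx hy
    change chi (x * y) = 0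
    rw [chi_mul, show chi x = 0 from hx, show chi y = 0 from hy, add_zero]
  inv_mem' := by
    intro x hx
    change chi x⁻¹ = 0
    have h := chi_mul x⁻¹ x
    rw [inv_mul_cancel, show chi x = 0 from hx, add_zero] at h
    rw [← h]
    decide

/-- the centre -/
def C2 : Subgroup K where
  carrier := {x | x = 1 ∨ x = z}
  one_mem' := Or.inl rfl
  mul_mem' := by
    rintro x y (rfl | rfl) (rfl | rfl)
    · exact Or.inl (one_mul 1)
    · exact Or.inr (one_mul z)
    · exact Or.inr (mul_one z)
    · exact Or.inl z_mul_z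
  inv_mem' := by
    rintro x (rfl | rfl)
    · exact Or.inl inv_one
    · refine Or.inr ?_
      decide

theorem comm_Q8 (x y : K) : ⁅x, y⁆ ∈ Q8 := by
  change chi (x * y * x⁻¹ * y⁻¹) = 0
  have h1 := chi_mul x x⁻¹
  have h2 := chi_mul y y⁻¹
  have h0 : chi 1 = 0 := by decide
  rw [mul_inv_cancel, h0] at h1 h2
  rw [chi_mul, chi_mul, chi_mul]
  linear_combination (-1) * h1 + (-1) * h2

theorem comm_C2 (x y : K) (hx : x ∈ Q8) (hy : y ∈ Q8) : ⁅x, y⁆ ∈ C2 := by
  have key : ∀ p q r s : ZMod 3, p * s - q * r = 1 →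
      (1 - r * r) * (q * s + r) + r * (p + s) = 0 → ∀ p' q' r' s' : ZMod 3,
      p' * s' - q' * r' = 1 → (1 - r' * r') * (q' * s' + r') + r' * (p' + s') = 0 →
      ((p * p' + q * r' = p' * p + q' * r ∧ p * q' + q * s' = p' * q + q' * s ∧
        r * p' + s * r' = r' * p + s' * r ∧ r * q' + s * s' = r' * q + s' * s) ∨
      (p * p' + q * r' = 2 * (p' * p + q' * r) ∧ p * q' + q * s' = 2 * (p' * q + q' * s) ∧
        r * p' + s * r' = 2 * (r' * p + s' * r) ∧ r * q' + s * s' = 2 * (r' * q + s' * s))) := by
    decide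
  rcases key x.p x.q x.r x.s x.det hx y.p y.q y.r y.s y.det hy with h | h
  · refine Or.inl ?_
    rw [commutatorElement_eq_one_iff_mul_comm]
    exact ext' h.1 h.2.1 h.2.2.1 h.2.2.2
  · refine Or.inr ?_
    have h1 : x * y = z * (y * x) := by
      apply ext'
      · simpa [z] using h.1
      · simpa [z] using h.2.1
      · simpa [z] using h.2.2.1
      · simpa [z] using h.2.2.2
    rw [commutatorElement_def, h1]
    group

instance : Group.IsSolvable K := by
  refine ⟨⟨3, ?_⟩⟩
  have h1 : derivedSeries K 1 ≤ Q8 := by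
    rw [derivedSeries_succ, Subgroup.commutator_le]
    exact fun x _ y _ => comm_Q8 x y
  have h2 : derivedSeries K 2 ≤ C2 := by
    rw [derivedSeries_succ, Subgroup.commutator_le]
    exact fun x hx y hy => comm_C2 x y (h1 hx) (h1 hy)
  rw [eq_bot_iff, derivedSeries_succ, Subgroup.commutator_le]
  intro x hx y hy
  rw [Subgroup.mem_bot, commutatorElement_eq_one_iff_mul_comm]
  rcases h2 hx with rfl | rfl
  · rw [one_mul, mul_one]
  · exact z_comm y

end K

end Vale.Agent.P246.Dis.H366
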