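import Vale.Agent.P246.Dis.H366.SL
import Mathlib.GroupTheory.PresentedGroup
import Mathlib.GroupTheory.Finiteness
import Mathlib.Algebra.Group.TypeTags.Basic

/-! # P246, disproof of the D(2) property: the action on `ℤ → K`

`a`, `b`, `t` act on the set of all functions `ℤ → K`, `K = SL(2, 3)`, such that the relations of
the group `⟨a, b, t | ababab = baa, b², t b t⁻¹ = a³⟩` hold, `b` acts non-trivially, and such that
every finitely generated subgroup of the kernel of `t ↦ 1`, `a, b ↦ 0` acts through a solvable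
group. -/

namespace Vale.Agent.P246.Dis.H366

open K

/-- configurations -/
abbrev Om : Type := ℤ → K

/-- `a` acts on the coordinate `0` -/
def ak (e : K) (k : K) : K := if eps e then k else beta k

theorem ak_one (e : K) : ak e 1 = 1 := by unfold ak; split_ifs <;> simp

theorem ak_mul (e k l : K) : ak e (k * l) = ak e k * ak e l := by
  unfold ak; split_ifs <;> simp

theorem ak_z (e : K) : ak e z = z := by unfold ak; split_ifs <;> simp [beta_z]

theorem ak_flip (e k : K) : ak (z * e) k = ak e (beta k) := by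
  unfold ak
  rw [eps_z]
  cases eps e <;> simp

/-- left multiplication of the coordinate `m` by a function of the coordinate `m - 1` -/
def lm (m : ℤ) (h : K → K) (x : Om) : Om := Function.update x m (h (x (m - 1)) * x m)

theorem lm_self (m : ℤ) (h : K → K) (x : Om) : lm m h x m = h (x (m - 1)) * x m := by
  simp [lm]

theorem lm_ne (m : ℤ) (h : K → K) (x : Om) {i : ℤ} (hi : i ≠ m) : lm m h x i = x i := by
  simp [lm, hi]

theorem lm_lm (m : ℤ) (h h' : K → K) (x : Om) :
    lm m h (lm m h' x) = lm m (fun e => h e * h' e) x := by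
  funext i
  by_cases hi : i = m
  · subst hi
    rw [lm_self, lm_self, lm_self, lm_ne _ _ _ (by omega), mul_assoc]
  · rw [lm_ne _ _ _ hi, lm_ne _ _ _ hi, lm_ne _ _ _ hi]

theorem lm_one (m : ℤ) (x : Om) : lm m (fun _ => 1) x = x := by
  funext i
  by_cases hi : i = m
  · subst hi; rw [lm_self, one_mul]
  · rw [lm_ne _ _ _ hi]

/-- the permutation `lm m h` -/
def lme (m : ℤ) (h : K → K) : Equiv.Perm Om where
  toFun := lm m h
  invFun := lm m fun e => (h e)⁻¹
  left_inv x := by rw [lm_lm]; simp [lm_one]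
  right_inv x := by rw [lm_lm]; simp [lm_one]

@[simp] theorem lme_apply (m : ℤ) (h : K → K) (x : Om) : lme m h x = lm m h x := rfl

theorem lme_mul (m : ℤ) (h h' : K → K) : lme m h * lme m h' = lme m fun e => h e * h' e := by
  ext1 x
  exact lm_lm m h h' x

theorem lme_inv (m : ℤ) (h : K → K) : (lme m h)⁻¹ = lme m fun e => (h e)⁻¹ := by
  ext1 x
  rfl

/-- the action of `a` -/
def pa : Equiv.Perm Om := lme 0 fun e => ak e a

/-- the action of `b` -/
def pb : Equiv.Perm Om := lme (-1) fun _ => z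

/-- the shift -/
def pt : Equiv.Perm Om where
  toFun x i := x (i - 1)
  invFun x i := x (i + 1)
  left_inv x := by funext i; simp
  right_inv x := by funext i; simp

theorem pt_apply (x : Om) (i : ℤ) : pt x i = x (i - 1) := rfl

theorem pt_inv_apply (x : Om) (i : ℤ) : pt⁻¹ x i = x (i + 1) := rfl

theorem pt_lme (m : ℤ) (h : K → K) : pt * lme m h * pt⁻¹ = lme (m + 1) h := by
  ext1 x
  funext i
  rw [Equiv.Perm.mul_apply, Equiv.Perm.mul_apply, pt_apply, lme_apply, lme_apply]
  by_cases hi : i = m + 1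
  · subst hi
    rw [lm_self, show m + 1 - 1 = m by ring, lm_self, pt_inv_apply, pt_inv_apply,
      show m - 1 + 1 = m by ring]
  · rw [lm_ne _ _ _ hi, lm_ne _ _ _ (by omega), pt_inv_apply, show i - 1 + 1 = i by ring]

/-- conjugation by `b` -/
theorem pb_conj (k : K) :
    pb * (lme 0 fun e => ak e k) * pb = lme 0 fun e => ak e (beta k) := by
  ext1 x
  funext i
  rw [Equiv.Perm.mul_apply, Equiv.Perm.mul_apply, lme_apply]
  unfold pb
  rw [lme_apply, lme_apply]
  by_cases h0 : i = 0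
  · subst h0
    rw [lm_ne _ _ _ (by norm_num), lm_self, lm_ne _ _ _ (by norm_num : (0 : ℤ) ≠ -1),
      show (0 : ℤ) - 1 = -1 by norm_num, lm_self, ak_flip]
    rw [lme_apply, lm_self, show (0 : ℤ) - 1 = -1 by norm_num]
  · by_cases h1 : i = -1
    · subst h1
      rw [lm_self, lm_ne _ _ _ (by norm_num), lm_self, ← mul_assoc, z_mul_z, one_mul, lme_apply,
        lm_ne _ _ _ (by norm_num)]
    · rw [lm_ne _ _ _ h1, lm_ne _ _ _ h0, lm_ne _ _ _ h1, lme_apply, lm_ne _ _ _ h0]

theorem pb_sq : pb * pb = 1 := by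
  unfold pb
  rw [lme_mul, z_mul_z]
  ext1 x
  exact lm_one _ x

theorem pb_inv : pb⁻¹ = pb := inv_eq_of_mul_eq_one_left pb_sq

theorem pb_ne_one : pb ≠ 1 := by
  intro h
  have h1 : pb (fun _ => 1) (-1) = (1 : Equiv.Perm Om) (fun _ => 1) (-1) := by rw [h]
  unfold pb at h1
  rw [lme_apply, lm_self, mul_one] at h1
  exact z_ne_one h1

theorem pa_cube : pa * pa * pa = lme 0 fun _ => z := by
  unfold pa
  rw [lme_mul, lme_mul]
  congr 1
  funext e
  rw [← ak_mul, ← ak_mul, a_cube, ak_z]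

theorem rel_t : pt * pb * pt⁻¹ = pa * pa * pa := by
  rw [pa_cube]
  unfold pb
  rw [pt_lme]
  rfl

theorem rel_r : pa * pb * pa * pb * pa * pb = pb * pa * pa := by
  have h1 := pb_conj a
  have h2 : pb * pa * pb = lme 0 fun e => ak e (beta a) := h1
  have h3 : pa * (pb * pa * pb) * pa = (pb * pa * pb) * (pb * pa * pb) := by
    rw [h2]
    unfold pa
    rw [lme_mul, lme_mul, lme_mul]
    congr 1
    funext e
    rw [← ak_mul, ← ak_mul, ← ak_mul, rel]
  calc pa * pb * pa * pb * pa * pb = (pa * (pb * pa * pb) * pa) * pb := by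
        simp only [mul_assoc]
    _ = (pb * pa * pb) * (pb * pa * pb) * pb := by rw [h3]
    _ = pb * pa * (pb * pb) * pa * (pb * pb) := by simp only [mul_assoc]
    _ = pb * pa * pa := by rw [pb_sq, mul_one, mul_one]

/-! ## Solvability -/

/-- triangular permutations -/
def Tri (g : Equiv.Perm Om) : Prop :=
  ∀ (i : ℤ) (x y : Om), (∀ j < i, x j = y j) → g x i * (x i)⁻¹ = g y i * (y i)⁻¹

theorem Tri.agree {g : Equiv.Perm Om} (hg : Tri g) {i : ℤ} {x y : Om} (h : ∀ j < i, x j = y j) :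
    ∀ j < i, g x j = g y j := by
  intro j hj
  have h1 := hg j x y fun k hk => h k (hk.trans hj)
  rw [h j hj] at h1
  exact mul_right_cancel h1

theorem Tri.mul {g g' : Equiv.Perm Om} (hg : Tri g) (hg' : Tri g') : Tri (g * g') := by
  intro i x y h
  have h1 := hg i (g' x) (g' y) (hg'.agree h)
  have h2 := hg' i x y h
  rw [Equiv.Perm.mul_apply, Equiv.Perm.mul_apply]
  calc g (g' x) i * (x i)⁻¹ = (g (g' x) i * (g' x i)⁻¹) * (g' x i * (x i)⁻¹) := by group
    _ = (g (g' y) i * (g' y i)⁻¹) * (g' y i * (y i)⁻¹) := by rw [h1, h2]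
    _ = _ := by group

/-- the triangular permutations which change only the coordinates `m ≤ i < n` -/
def W (m n : ℤ) : Subgroup (Equiv.Perm Om) where
  carrier := {g | Tri g ∧ Tri g⁻¹ ∧ ∀ i, i < m ∨ n ≤ i → ∀ x, g x i = x i}
  one_mem' := by
    refine ⟨?_, ?_, fun _ _ _ => rfl⟩
    · intro i x y _
      simp
    · intro i x y _
      simp
  mul_mem' := by
    rintro g g' ⟨h1, h2, h3⟩ ⟨h1', h2', h3'⟩
    refine ⟨h1.mul h1', ?_, fun i hi x => ?_⟩
    · rw [mul_inv_rev]
      exact h2'.mul h2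
    · rw [Equiv.Perm.mul_apply, h3 i hi, h3' i hi]
  inv_mem' := by
    rintro g ⟨h1, h2, h3⟩
    refine ⟨h2, by rwa [inv_inv], fun i hi x => ?_⟩
    have h := h3 i hi (g⁻¹ x)
    have h4 : g (g⁻¹ x) = x := Equiv.apply_symm_apply g x
    rw [h4] at h
    exact h.symm

theorem W_mono {m n m' n' : ℤ} (h : m' ≤ m) (h' : n ≤ n') : W m n ≤ W m' n' := by
  rintro g ⟨h1, h2, h3⟩
  refine ⟨h1, h2, fun i hi x => h3 i ?_ x⟩
  omega

theorem lme_mem (m : ℤ) (h : K → K) : lme m h ∈ W m (m + 1) := by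
  have key : ∀ h : K → K, Tri (lme m h) := by
    intro h i x y hxy
    rw [lme_apply, lme_apply]
    by_cases hi : i = m
    · subst hi
      rw [lm_self, lm_self, hxy (i - 1) (by omega)]
      group
    · rw [lm_ne _ _ _ hi, lm_ne _ _ _ hi, mul_inv_cancel, mul_inv_cancel]
  refine ⟨key h, ?_, fun i hi x => ?_⟩
  · rw [lme_inv]
    exact key _
  · rw [lme_apply, lm_ne _ _ _ (by omega)]

/-- powers of solvable groups are solvable -/
instance pi_solvable (J S : Type) [Group S] [Group.IsSolvable S] : Group.IsSolvable (J → S) := by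
  obtain ⟨n, hn⟩ := (Group.isSolvable_def S).1 inferInstance
  rw [Group.isSolvable_def]
  refine ⟨n, ?_⟩
  rw [eq_bot_iff]
  intro g hg
  rw [Subgroup.mem_bot]
  funext j
  have h1 : Pi.evalMonoidHom (fun _ : J => S) j g ∈ derivedSeries S n :=
    map_derivedSeries_le_derivedSeries (Pi.evalMonoidHom (fun _ : J => S) j) n ⟨g, hg, rfl⟩
  rw [hn, Subgroup.mem_bot] at h1
  exact h1

/-- the first coordinate which is changed -/
def fst (m n : ℤ) : W m n →* (Om → K) where
  toFun g x := g.1 x m * (x m)⁻¹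
  map_one' := by
    funext x
    simp
  map_mul' g g' := by
    funext x
    have h1 := g.2.1 m (g'.1 x) x fun j hj => g'.2.2.2 j (Or.inl hj) x
    change g.1 (g'.1 x) m * (x m)⁻¹ = (g.1 x m * (x m)⁻¹) * (g'.1 x m * (x m)⁻¹)
    rw [← h1]
    group

theorem W_solvable : ∀ (k : ℕ) (m n : ℤ), n - m ≤ k → Group.IsSolvable (W m n)
  | 0, m, n, h => by
    have h1 : W m n = ⊥ := by
      rw [eq_bot_iff]
      rintro g ⟨_, _, h3⟩
      rw [Subgroup.mem_bot]
      ext1 x
      funext i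
      exact h3 i (by omega) x
    rw [h1]
    infer_instance
  | k + 1, m, n, h => by
    have := W_solvable k (m + 1) n (by push_cast at h; omega)
    have hle : W (m + 1) n ≤ W m n := W_mono (by omega) le_rfl
    refine Group.isSolvable_of_ker_le_range (Subgroup.inclusion hle) (fst m n) ?_
    intro g hg
    rw [MonoidHom.mem_ker] at hg
    refine ⟨⟨g.1, g.2.1, g.2.2.1, fun i hi x => ?_⟩, rfl⟩
    by_cases him : i = m
    · subst him
      have h1 := congrFun hg x
      exact mul_inv_eq_one.1 h1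
    · exact g.2.2.2 i (by omega) x

instance (m n : ℤ) : Group.IsSolvable (W m n) := W_solvable (n - m).toNat m n (by omega)

/-- the union of the groups `W m n` -/
def WU : Subgroup (Equiv.Perm Om) where
  carrier := {g | ∃ n : ℕ, g ∈ W (-n) n}
  one_mem' := ⟨0, one_mem _⟩
  mul_mem' := by
    rintro g g' ⟨n, hn⟩ ⟨n', hn'⟩
    refine ⟨max n n', mul_mem (W_mono ?_ ?_ hn) (W_mono ?_ ?_ hn')⟩ <;> push_cast <;> omega
  inv_mem' := by
    rintro g ⟨n, hn⟩
    exact ⟨n, inv_mem hn⟩

theorem mem_WU {g : Equiv.Perm Om} {m n : ℤ} (hg : g ∈ W m n) : g ∈ WU :=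
  ⟨(max (-m) n).toNat, W_mono (by omega) (by omega) hg⟩

theorem pt_mem_W {g : Equiv.Perm Om} {m n : ℤ} (hg : g ∈ W m n) :
    pt * g * pt⁻¹ ∈ W (m + 1) (n + 1) := by
  have key : ∀ g : Equiv.Perm Om, Tri g → Tri (pt * g * pt⁻¹) := by
    intro g hg i x y hxy
    have h1 := hg (i - 1) (pt⁻¹ x) (pt⁻¹ y) fun j hj => hxy (j + 1) (by omega)
    rw [pt_inv_apply, pt_inv_apply, show i - 1 + 1 = i by ring] at h1
    exact h1
  refine ⟨key g hg.1, ?_, fun i hi x => ?_⟩
  · have h1 : (pt * g * pt⁻¹)⁻¹ = pt * g⁻¹ * pt⁻¹ := by group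
    rw [h1]
    exact key _ hg.2.1
  · have h1 := hg.2.2 (i - 1) (by omega) (pt⁻¹ x)
    rw [pt_inv_apply, show i - 1 + 1 = i by ring] at h1
    exact h1

theorem pt_inv_mem_W {g : Equiv.Perm Om} {m n : ℤ} (hg : g ∈ W m n) :
    pt⁻¹ * g * pt ∈ W (m - 1) (n - 1) := by
  have key : ∀ g : Equiv.Perm Om, Tri g → Tri (pt⁻¹ * g * pt) := by
    intro g hg i x y hxy
    have h1 := hg (i + 1) (pt x) (pt y) fun j hj => hxy (j - 1) (by omega)
    rw [pt_apply, pt_apply, show i + 1 - 1 = i by ring] at h1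
    exact h1
  refine ⟨key g hg.1, ?_, fun i hi x => ?_⟩
  · have h1 : (pt⁻¹ * g * pt)⁻¹ = pt⁻¹ * g⁻¹ * pt := by group
    rw [h1]
    exact key _ hg.2.1
  · have h1 := hg.2.2 (i + 1) (by omega) (pt x)
    rw [pt_apply, show i + 1 - 1 = i by ring] at h1
    exact h1

/-- the shift normalises `WU` -/
theorem pt_conj {g : Equiv.Perm Om} (hg : g ∈ WU) : pt * g * pt⁻¹ ∈ WU := by
  obtain ⟨n, hn⟩ := hg
  exact mem_WU (pt_mem_W hn)

theorem pt_inv_conj {g : Equiv.Perm Om} (hg : g ∈ WU) : pt⁻¹ * g * pt ∈ WU := by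
  obtain ⟨n, hn⟩ := hg
  exact mem_WU (pt_inv_mem_W hn)

theorem pt_zpow_conj {g : Equiv.Perm Om} (hg : g ∈ WU) : ∀ d : ℤ, pt ^ d * g * pt ^ (-d) ∈ WU := by
  intro d
  induction d using Int.induction_on with
  | zero => simpa using hg
  | succ i ih =>
    have h1 := pt_conj ih
    have h2 : pt ^ ((i : ℤ) + 1) * g * pt ^ (-((i : ℤ) + 1)) =
        pt * (pt ^ (i : ℤ) * g * pt ^ (-(i : ℤ))) * pt⁻¹ := by group
    rw [h2]
    exact h1
  | pred i ih =>
    have h1 := pt_inv_conj ih
    have h2 : pt ^ (-(i : ℤ) - 1) * g * pt ^ (-(-(i : ℤ) - 1)) =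
        pt⁻¹ * (pt ^ (-(i : ℤ)) * g * pt ^ (-(-(i : ℤ)))) * pt := by group
    rw [h2]
    exact h1

theorem pa_mem : pa ∈ WU := mem_WU (lme_mem _ _)

theorem pb_mem : pb ∈ WU := mem_WU (lme_mem _ _)

/-- finitely many elements of `WU` lie in a solvable subgroup -/
theorem exists_W (s : Finset (Equiv.Perm Om)) (hs : ∀ g ∈ s, g ∈ WU) :
    ∃ n : ℕ, ∀ g ∈ s, g ∈ W (-n) n := by
  classical
  induction s using Finset.induction_on with
  | empty => exact ⟨0, by simp⟩
  | insert g s _ ih =>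
    obtain ⟨n, hn⟩ := ih fun x hx => hs x (Finset.mem_insert_of_mem hx)
    obtain ⟨n', hn'⟩ := hs g (Finset.mem_insert_self g s)
    refine ⟨max n n', fun x hx => ?_⟩
    rcases Finset.mem_insert.1 hx with rfl | hx
    · exact W_mono (by push_cast; omega) (by push_cast; omega) hn'
    · exact W_mono (by push_cast; omega) (by push_cast; omega) (hn x hx)

/-- Finitely generated subgroups of `WU` are solvable. -/
theorem closure_solvable (s : Finset (Equiv.Perm Om)) (hs : ∀ g ∈ s, g ∈ WU) :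
    Group.IsSolvable (Subgroup.closure (s : Set (Equiv.Perm Om))) := by
  obtain ⟨n, hn⟩ := exists_W s hs
  have hle : Subgroup.closure (s : Set (Equiv.Perm Om)) ≤ W (-n) n :=
    (Subgroup.closure_le _).2 fun g hg => hn g hg
  exact Group.isSolvable_of_isSolvable_injective (Subgroup.inclusion_injective hle)

section Hom

variable {A : Type*} [Group A] (θ : A →* Equiv.Perm Om) (φ : A →* Multiplicative ℤ)

/-- the elements which act as an element of `WU` times a power of the shift -/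
def good : Subgroup A where
  carrier := {g | θ g * pt ^ (-(φ g).toAdd) ∈ WU}
  one_mem' := by
    change θ 1 * pt ^ (-(φ 1).toAdd) ∈ WU
    rw [map_one, map_one, toAdd_one, neg_zero, zpow_zero, one_mul]
    exact one_mem _
  mul_mem' := by
    intro g h hg hh
    have h1 := mul_mem hg (pt_zpow_conj hh (φ g).toAdd)
    have h2 : θ g * pt ^ (-(φ g).toAdd) * (pt ^ (φ g).toAdd * (θ h * pt ^ (-(φ h).toAdd)) *
        pt ^ (-(φ g).toAdd)) = θ (g * h) * pt ^ (-(φ (g * h)).toAdd) := by
      rw [map_mul, map_mul, toAdd_mul, neg_add]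
      group
    change θ (g * h) * pt ^ (-(φ (g * h)).toAdd) ∈ WU
    rw [← h2]
    exact h1
  inv_mem' := by
    intro g hg
    have h1 := pt_zpow_conj (inv_mem hg) (-(φ g).toAdd)
    have h2 : pt ^ (-(φ g).toAdd) * (θ g * pt ^ (-(φ g).toAdd))⁻¹ * pt ^ (-(-(φ g).toAdd)) =
        θ g⁻¹ * pt ^ (-(φ g⁻¹).toAdd) := by
      rw [map_inv, map_inv, toAdd_inv]
      group
    change θ g⁻¹ * pt ^ (-(φ g⁻¹).toAdd) ∈ WU
    rw [← h2]
    exact h1

variable {θ φ}

/-- If `A` is generated by elements which act as `a`, `b`, `t` and have degrees `0`, `0`, `1`,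
then the kernel of the degree acts through `WU`. -/
theorem mem_WU_of_ker {S : Set A} (hS : Subgroup.closure S = ⊤)
    (h : ∀ g ∈ S, (θ g ∈ WU ∧ φ g = 1) ∨ (θ g = pt ∧ φ g = Multiplicative.ofAdd 1)) {g : A}
    (hg : φ g = 1) : θ g ∈ WU := by
  have h1 : Subgroup.closure S ≤ good θ φ := by
    rw [Subgroup.closure_le]
    intro x hx
    change θ x * pt ^ (-(φ x).toAdd) ∈ WU
    rcases h x hx with ⟨h2, h3⟩ | ⟨h2, h3⟩
    · rw [h3, toAdd_one, neg_zero, zpow_zero, mul_one]
      exact h2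
    · rw [h2, h3, toAdd_ofAdd, zpow_neg, zpow_one, mul_inv_cancel]
      exact one_mem _
  have h2 : g ∈ good θ φ := h1 (hS ▸ Subgroup.mem_top g)
  have h3 : θ g * pt ^ (-(φ g).toAdd) ∈ WU := h2
  rwa [hg, toAdd_one, neg_zero, zpow_zero, mul_one] at h3

/-- finitely generated subgroups of the kernel act through solvable groups -/
theorem closure_image_solvable {S : Set A} (hS : Subgroup.closure S = ⊤)
    (h : ∀ g ∈ S, (θ g ∈ WU ∧ φ g = 1) ∨ (θ g = pt ∧ φ g = Multiplicative.ofAdd 1))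
    (s : Finset A) (hs : ∀ x ∈ s, φ x = 1) :
    Group.IsSolvable (Subgroup.closure (θ '' s)) := by
  classical
  have h1 := closure_solvable (s.image θ) (by
    intro g hg
    obtain ⟨x, hx, rfl⟩ := Finset.mem_image.1 hg
    exact mem_WU_of_ker hS h (hs x hx))
  rwa [Finset.coe_image] at h1

end Hom

/-- **The tower, universal form.** Let `A` be generated by `a`, `b`, `t`, let `φ : A → ℤ` be a
homomorphism with `φ a = φ b = 0`, `φ t = 1`, and suppose that every group with elements `a`, `b`,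
`t` which satisfy `ababab = baa`, `t b t⁻¹ = a³`, `b² = 1` receives a homomorphism from `A`. Then
`A` has an action in which `b` acts non-trivially and finitely generated subgroups of the kernel
of `φ` act through solvable groups. -/
theorem exists_locSolv {A : Type*} [Group A] (a b t : A)
    (hgen : Subgroup.closure {a, b, t} = ⊤)
    (φ : A →* Multiplicative ℤ) (ha : φ a = 1) (hb : φ b = 1)
    (ht : φ t = Multiplicative.ofAdd 1)
    (hlift : ∀ a' b' t' : Equiv.Perm Om, a' * b' * a' * b' * a' * b' * a'⁻¹ * a'⁻¹ * b'⁻¹ = 1 →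
      t' * b' * t'⁻¹ = a' ^ 3 → b' ^ 2 = 1 →
      ∃ θ : A →* Equiv.Perm Om, θ a = a' ∧ θ b = b' ∧ θ t = t') :
    ∃ (B : Type) (_ : Group B) (θ : A →* B), θ b ≠ 1 ∧
      ∀ s : Finset A, (∀ x ∈ s, φ x = 1) → Group.IsSolvable (Subgroup.closure (θ '' s)) := by
  obtain ⟨θ, h1, h2, h3⟩ := hlift pa pb pt (by
      rw [rel_r]
      group) (by
      rw [rel_t, pow_succ, pow_two]) (by rw [pow_two, pb_sq])
  refine ⟨Equiv.Perm Om, inferInstance, θ, ?_, fun s hs =>
    closure_image_solvable hgen ?_ s hs⟩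
  · rw [h2]
    exact pb_ne_one
  · rintro g (rfl | rfl | rfl)
    · exact Or.inl ⟨h1 ▸ pa_mem, ha⟩
    · exact Or.inl ⟨h2 ▸ pb_mem, hb⟩
    · exact Or.inr ⟨h3, ht⟩

end Vale.Agent.P246.Dis.H366
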